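import Mathlib

/-!
Counting lemma for P050: homomorphism counts into a bipartite host with nested neighbourhoods.
-/

namespace Vale.Agent.Lib.P050.helper5

open Finset

section count

variable {A B X Y : Type*} [Fintype A] [Fintype B] [Fintype X] [Fintype Y]
  [DecidableEq A] [DecidableEq B] [DecidableEq X] [DecidableEq Y]

/-- the number of elements related to `x` -/
def rdeg {P Q : Type*} [Fintype Q] (S : P → Q → Prop) [DecidableRel S] (x : P) : ℕ :=
  (univ.filter (fun y => S x y)).card

theorem rdeg_le {P Q : Type*} [Fintype Q] (S : P → Q → Prop) [DecidableRel S] (x : P) :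
    rdeg S x ≤ Fintype.card Q := by
  unfold rdeg
  exact Finset.card_le_univ _

/-- common neighbourhoods of vertices with nested neighbourhoods are large -/
theorem common_nbhd (S : X → Y → Prop) [DecidableRel S]
    (hS : ∀ x x', (∀ y, S x y → S x' y) ∨ (∀ y, S x' y → S x y))
    (f : A → X) (U : Finset A) :
    Fintype.card Y * ∏ u ∈ U, rdeg S (f u) ≤
      (univ.filter (fun y => ∀ u ∈ U, S (f u) y)).card * Fintype.card Y ^ U.card := by
  classical
  induction U using Finset.induction_on with
  | empty => simp
  | insert u0 U hu0 ih =>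
    rw [Finset.prod_insert hu0, Finset.card_insert_of_notMem hu0, pow_succ]
    by_cases hsub : ∀ y, (∀ u ∈ U, S (f u) y) → S (f u0) y
    · have heq : (univ.filter (fun y => ∀ u ∈ insert u0 U, S (f u) y))
          = univ.filter (fun y => ∀ u ∈ U, S (f u) y) := by
        ext y
        simp only [mem_filter, mem_univ, true_and, mem_insert, forall_eq_or_imp]
        exact ⟨fun h => h.2, fun h => ⟨hsub y h, h⟩⟩
      rw [heq]
      have hdeg : rdeg S (f u0) ≤ Fintype.card Y := rdeg_le S (f u0)
      calc Fintype.card Y * (rdeg S (f u0) * ∏ u ∈ U, rdeg S (f u))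
          = rdeg S (f u0) * (Fintype.card Y * ∏ u ∈ U, rdeg S (f u)) := by ring
        _ ≤ Fintype.card Y * ((univ.filter (fun y => ∀ u ∈ U, S (f u) y)).card
              * Fintype.card Y ^ U.card) := Nat.mul_le_mul hdeg ih
        _ = _ := by ring
    · push Not at hsub
      obtain ⟨y0, hy0, hny0⟩ := hsub
      have hall : ∀ u ∈ U, ∀ y, S (f u0) y → S (f u) y := by
        intro u hu
        rcases hS (f u0) (f u) with h | h
        · exact h
        · exact absurd (h y0 (hy0 u hu)) hny0
      have heq : (univ.filter (fun y => ∀ u ∈ insert u0 U, S (f u) y))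
          = univ.filter (fun y => S (f u0) y) := by
        ext y
        simp only [mem_filter, mem_univ, true_and, mem_insert, forall_eq_or_imp]
        exact ⟨fun h => h.1, fun h => ⟨h, fun u hu => hall u hu y h⟩⟩
      rw [heq]
      have hprod : ∏ u ∈ U, rdeg S (f u) ≤ Fintype.card Y ^ U.card := by
        calc ∏ u ∈ U, rdeg S (f u) ≤ ∏ _u ∈ U, Fintype.card Y :=
              Finset.prod_le_prod (fun _ _ => Nat.zero_le _) (fun u _ => rdeg_le S (f u))
          _ = Fintype.card Y ^ U.card := by rw [Finset.prod_const]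
      calc Fintype.card Y * (rdeg S (f u0) * ∏ u ∈ U, rdeg S (f u))
          ≤ Fintype.card Y * (rdeg S (f u0) * Fintype.card Y ^ U.card) :=
            Nat.mul_le_mul_left _ (Nat.mul_le_mul_left _ hprod)
        _ = _ := by unfold rdeg; ring

/-- power mean inequality in the form needed -/
theorem power_mean_nat (d : X → ℕ) (r : ℕ) :
    Fintype.card X * (∑ x, d x) ^ r ≤ Fintype.card X ^ r * ∑ x, d x ^ r := by
  classical
  induction r with
  | zero => simp
  | succ r ih =>
    have hcheb : (∑ x, d x ^ r) * (∑ x, d x) ≤ Fintype.card X * ∑ x, d x ^ r * d x := by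
      have hmono : MonovaryOn (fun x => d x ^ r) d (univ : Finset X) := by
        intro i _ j _ hij
        exact Nat.pow_le_pow_left hij.le r
      have := hmono.sum_mul_sum_le_card_mul_sum
      simpa using this
    calc Fintype.card X * (∑ x, d x) ^ (r + 1)
        = (Fintype.card X * (∑ x, d x) ^ r) * ∑ x, d x := by ring
      _ ≤ (Fintype.card X ^ r * ∑ x, d x ^ r) * ∑ x, d x := Nat.mul_le_mul_right _ ih
      _ = Fintype.card X ^ r * ((∑ x, d x ^ r) * ∑ x, d x) := by ring
      _ ≤ Fintype.card X ^ r * (Fintype.card X * ∑ x, d x ^ r * d x) :=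
          Nat.mul_le_mul_left _ hcheb
      _ = Fintype.card X ^ (r + 1) * ∑ x, d x ^ (r + 1) := by
          rw [pow_succ]
          have : ∀ x, d x ^ r * d x = d x ^ (r + 1) := fun x => by rw [pow_succ]
          simp only [this]
          ring

/-- the counting inequality: homomorphism pairs into a host relation with nested rows -/
theorem chain_count (R : A → B → Prop) [DecidableRel R] (S : X → Y → Prop) [DecidableRel S]
    (hS : ∀ x x', (∀ y, S x y → S x' y) ∨ (∀ y, S x' y → S x y)) :
    Fintype.card X ^ Fintype.card A * Fintype.card Y ^ Fintype.card B *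
        (∑ x, rdeg S x) ^ (∑ u, rdeg R u)
      ≤ (univ.filter (fun p : (A → X) × (B → Y) => ∀ u v, R u v → S (p.1 u) (p.2 v))).card *
        (Fintype.card X * Fintype.card Y) ^ (∑ u, rdeg R u) := by
  classical
  set e : ℕ := ∑ u, rdeg R u with he
  set nX : ℕ := Fintype.card X with hnX
  set nY : ℕ := Fintype.card Y with hnY
  -- step 1: the count as a sum of products
  have hN : (univ.filter (fun p : (A → X) × (B → Y) => ∀ u v, R u v → S (p.1 u) (p.2 v))).card
      = ∑ f : A → X, ∏ v : B, (univ.filter (fun y => ∀ u, R u v → S (f u) y)).card := by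
    rw [Finset.card_filter, Fintype.sum_prod_type]
    refine Finset.sum_congr rfl fun f _ => ?_
    rw [← Finset.card_filter, ← Fintype.card_piFinset]
    congr 1
    ext g
    simp only [mem_filter, mem_univ, true_and, Fintype.mem_piFinset]
    exact ⟨fun h v u huv => h u v huv, fun h u v huv => h v u huv⟩
  -- step 2: bound for a fixed `f`
  have hcols : ∑ v : B, (univ.filter (fun u => R u v)).card = e := by
    rw [he]
    simp only [rdeg, Finset.card_filter]
    exact Finset.sum_comm
  have hf : ∀ f : A → X, nY ^ Fintype.card B * ∏ u, rdeg S (f u) ^ rdeg R u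
      ≤ (∏ v : B, (univ.filter (fun y => ∀ u, R u v → S (f u) y)).card) * nY ^ e := by
    intro f
    have h1 : ∀ v : B, nY * ∏ u ∈ univ.filter (fun u => R u v), rdeg S (f u)
        ≤ (univ.filter (fun y => ∀ u, R u v → S (f u) y)).card
          * nY ^ (univ.filter (fun u => R u v)).card := by
      intro v
      have := common_nbhd S hS f (univ.filter (fun u => R u v))
      simpa only [mem_filter, mem_univ, true_and] using this
    have h2 := Finset.prod_le_prod (s := (univ : Finset B)) (fun v _ => Nat.zero_le _)
      (fun v _ => h1 v)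
    rw [Finset.prod_mul_distrib, Finset.prod_mul_distrib, Finset.prod_const, Finset.prod_pow_eq_pow_sum,
      hcols, Finset.card_univ] at h2
    have h3 : ∏ v : B, ∏ u ∈ univ.filter (fun u => R u v), rdeg S (f u)
        = ∏ u, rdeg S (f u) ^ rdeg R u := by
      simp only [Finset.prod_filter]
      rw [Finset.prod_comm]
      refine Finset.prod_congr rfl fun u _ => ?_
      rw [← Finset.prod_filter, Finset.prod_const]
      rfl
    rw [h3] at h2
    exact h2
  -- step 3: sum over `f`
  have hsum : ∑ f : A → X, ∏ u, rdeg S (f u) ^ rdeg R u = ∏ u : A, ∑ x, rdeg S x ^ rdeg R u :=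
    (Fintype.prod_sum (fun (u : A) (x : X) => rdeg S x ^ rdeg R u)).symm
  -- step 4: power mean
  have hpm : nX ^ Fintype.card A * (∑ x, rdeg S x) ^ e
      ≤ nX ^ e * ∏ u : A, ∑ x, rdeg S x ^ rdeg R u := by
    have h1 := Finset.prod_le_prod (s := (univ : Finset A)) (fun u _ => Nat.zero_le _)
      (fun u _ => power_mean_nat (fun x => rdeg S x) (rdeg R u))
    rw [Finset.prod_mul_distrib, Finset.prod_mul_distrib, Finset.prod_const, Finset.prod_pow_eq_pow_sum,
      Finset.prod_pow_eq_pow_sum, Finset.card_univ] at h1
    exact h1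
  calc nX ^ Fintype.card A * nY ^ Fintype.card B * (∑ x, rdeg S x) ^ e
      = nY ^ Fintype.card B * (nX ^ Fintype.card A * (∑ x, rdeg S x) ^ e) := by ring
    _ ≤ nY ^ Fintype.card B * (nX ^ e * ∏ u : A, ∑ x, rdeg S x ^ rdeg R u) :=
        Nat.mul_le_mul_left _ hpm
    _ = nX ^ e * ∑ f : A → X, nY ^ Fintype.card B * ∏ u, rdeg S (f u) ^ rdeg R u := by
        rw [← hsum, Finset.mul_sum, Finset.mul_sum, Finset.mul_sum]
        refine Finset.sum_congr rfl fun f _ => ?_
        ring
    _ ≤ nX ^ e * ∑ f : A → X,
          (∏ v : B, (univ.filter (fun y => ∀ u, R u v → S (f u) y)).card) * nY ^ e :=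
        Nat.mul_le_mul_left _ (Finset.sum_le_sum fun f _ => hf f)
    _ = _ := by
        rw [hN, ← Finset.sum_mul, mul_pow]
        ring

end count

end Vale.Agent.Lib.P050.helper5
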