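import Mathlib
import Vale.Agent.Lib.P050.helper5.Chain

/-!
P050: Sidorenko's inequality for bipartite hosts with no induced `2K_2` (chain graphs).
-/

namespace Vale.Agent.Lib.P050.helper5

open Finset

section edges

variable {W : Type*} [Fintype W] [DecidableEq W]

/-- in a graph with a proper two-colouring, the degrees of one colour class sum to the number of
edges -/
theorem bip_edges (G : SimpleGraph W) [DecidableRel G.Adj] (c : W → Bool)
    (hc : ∀ x y, G.Adj x y → c x ≠ c y) (b b' : Bool) (hb : b ≠ b') :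
    ∑ x : {w // c w = b},
        rdeg (fun (x : {w // c w = b}) (y : {w // c w = b'}) => G.Adj x.1 y.1) x
      = G.edgeFinset.card := by
  classical
  have hbip : G.IsBipartiteWith (↑(univ.filter (fun w => c w = b)) : Set W)
      ↑(univ.filter (fun w => c w = b')) := by
    refine ⟨?_, ?_⟩
    · rw [Finset.disjoint_coe, Finset.disjoint_filter]
      intro w _ h1 h2
      exact hb (h1.symm.trans h2)
    · intro v w hvw
      have := hc v w hvw
      simp only [Finset.coe_filter, Finset.mem_univ, true_and, Set.mem_ofPred_eq]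
      cases hv : c v <;> cases hw : c w <;> cases b <;> cases b' <;> simp_all
  have h1 := SimpleGraph.isBipartiteWith_sum_degrees_eq_card_edges hbip
  rw [← h1]
  rw [Finset.sum_subtype (univ.filter (fun w => c w = b)) (p := fun w => c w = b) (by simp)]
  refine Finset.sum_congr rfl fun x _ => ?_
  unfold rdeg
  rw [← SimpleGraph.card_neighborFinset_eq_degree, SimpleGraph.neighborFinset_eq_filter]
  have hset : (univ.filter (fun y : {w // c w = b'} => G.Adj x.1 y.1))
      = (univ.filter (fun w => G.Adj x.1 w)).subtype (fun w => c w = b') := by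
    ext y
    simp
  rw [hset, Finset.card_subtype]
  congr 1
  apply Finset.filter_true_of_mem
  intro w hw
  simp only [mem_filter, mem_univ, true_and] at hw
  have := hc x.1 w hw
  have hx := x.2
  cases hw' : c w <;> cases b <;> cases b' <;> simp_all

/-- in a properly two-coloured graph with no induced `2K_2`, the neighbourhoods of the vertices
of one colour are nested -/
theorem nested_of_2K2 (G : SimpleGraph W) (c : W → Bool) (hc : ∀ x y, G.Adj x y → c x ≠ c y)
    (h2 : ∀ a b c' d, G.Adj a b → G.Adj c' d → a ≠ c' → a ≠ d → b ≠ c' → b ≠ d →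
      G.Adj a c' ∨ G.Adj a d ∨ G.Adj b c' ∨ G.Adj b d) (b b' : Bool) (hb : b ≠ b')
    (x x' : {w // c w = b}) :
    (∀ y : {w // c w = b'}, G.Adj x.1 y.1 → G.Adj x'.1 y.1) ∨
      (∀ y : {w // c w = b'}, G.Adj x'.1 y.1 → G.Adj x.1 y.1) := by
  by_contra hcon
  push Not at hcon
  obtain ⟨⟨y, hy, hny⟩, ⟨y', hy', hny'⟩⟩ := hcon
  have hxx' : x.1 ≠ x'.1 := by
    intro h
    apply hny
    rw [← h]
    exact hy
  have hyy' : y.1 ≠ y'.1 := by
    intro h
    apply hny
    rw [h]
    exact hy'
  have hxy' : x.1 ≠ y'.1 := by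
    intro h
    have := y'.2
    rw [← h, x.2] at this
    exact hb this
  have hyx' : y.1 ≠ x'.1 := by
    intro h
    have := y.2
    rw [h, x'.2] at this
    exact hb this
  rcases h2 x.1 y.1 x'.1 y'.1 hy hy' hxx' hxy' hyx' hyy' with h | h | h | h
  · exact hc _ _ h (x.2.trans x'.2.symm)
  · exact hny' h
  · exact hny h.symm
  · exact hc _ _ h (y.2.trans y'.2.symm)

end edges

/-- the numerical inequality behind the two orientations -/
theorem keyK (x y : ℝ) (hx : 0 ≤ x) (hy : 0 ≤ y) (a b e : ℕ) (hab : a + b ≤ e + 1)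
    (h1 : 1 ≤ a + b) (h2 : 1 ≤ e → 1 ≤ a ∧ 1 ≤ b) :
    2 ^ e * (x + y) ^ (a + b) * (x * y) ^ e
      ≤ (x ^ a * y ^ b + x ^ b * y ^ a) * (x + y) ^ (2 * e) := by
  rcases Nat.eq_zero_or_pos e with he | he
  · subst he
    have : (a = 1 ∧ b = 0) ∨ (a = 0 ∧ b = 1) := by omega
    rcases this with ⟨rfl, rfl⟩ | ⟨rfl, rfl⟩ <;> simp <;> linarith
  · obtain ⟨ha, hb⟩ := h2 he
    obtain ⟨a', rfl⟩ : ∃ a', a = a' + 1 := ⟨a - 1, by omega⟩
    obtain ⟨b', rfl⟩ : ∃ b', b = b' + 1 := ⟨b - 1, by omega⟩
    obtain ⟨j, rfl⟩ : ∃ j, e = a' + b' + 1 + j := ⟨e - (a' + b' + 1), by omega⟩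
    set p := x ^ (a' + 1) * y ^ (b' + 1) with hp
    set q := x ^ (b' + 1) * y ^ (a' + 1) with hq
    have hp0 : 0 ≤ p := by positivity
    have hq0 : 0 ≤ q := by positivity
    have hpq : p * q = (x * y) ^ (a' + b' + 2) := by
      rw [hp, hq]
      ring
    have hxy0 : 0 ≤ x * y := mul_nonneg hx hy
    have hs0 : 0 ≤ x + y := add_nonneg hx hy
    have h4 : 2 ^ 2 * (x * y) ≤ (x + y) ^ 2 := by nlinarith [sq_nonneg (x - y)]
    have hT : 2 ^ (a' + b' + 1) * (x * y) ^ (a' + b' + 1) ≤ (p + q) * (x + y) ^ (a' + b') := by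
      have hT0 : 0 ≤ (p + q) * (x + y) ^ (a' + b') := by positivity
      by_contra hlt
      push Not at hlt
      have hsq := mul_self_lt_mul_self hT0 hlt
      have h5 : 2 ^ 2 * (x * y) ^ (a' + b' + 2) ≤ (p + q) ^ 2 := by
        rw [← hpq]
        nlinarith [sq_nonneg (p - q)]
      have h6 : (2 ^ 2 * (x * y)) ^ (a' + b') ≤ ((x + y) ^ (a' + b')) ^ 2 := by
        rw [← pow_mul, mul_comm (a' + b') 2, pow_mul]
        exact pow_le_pow_left₀ (by positivity) h4 _
      have h7 : (2 ^ (a' + b' + 1) * (x * y) ^ (a' + b' + 1))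
            * (2 ^ (a' + b' + 1) * (x * y) ^ (a' + b' + 1))
          ≤ ((p + q) * (x + y) ^ (a' + b')) * ((p + q) * (x + y) ^ (a' + b')) := by
        calc (2 ^ (a' + b' + 1) * (x * y) ^ (a' + b' + 1))
              * (2 ^ (a' + b' + 1) * (x * y) ^ (a' + b' + 1))
            = (2 ^ 2 * (x * y) ^ (a' + b' + 2)) * (2 ^ 2 * (x * y)) ^ (a' + b') := by
              have gen : ∀ (c z : ℝ) (m : ℕ), (c ^ (m + 1) * z ^ (m + 1)) * (c ^ (m + 1) * z ^ (m + 1))
                  = (c ^ 2 * z ^ (m + 2)) * (c ^ 2 * z) ^ m := by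
                intro c z m
                ring
              exact gen 2 (x * y) (a' + b')
          _ ≤ (p + q) ^ 2 * ((x + y) ^ (a' + b')) ^ 2 :=
              mul_le_mul h5 h6 (by positivity) (by positivity)
          _ = _ := by ring
      linarith
    have hj : (2 * (x * y)) ^ j ≤ ((x + y) ^ 2) ^ j :=
      pow_le_pow_left₀ (by positivity) (by linarith) _
    calc 2 ^ (a' + b' + 1 + j) * (x + y) ^ (a' + 1 + (b' + 1)) * (x * y) ^ (a' + b' + 1 + j)
        = (2 ^ (a' + b' + 1) * (x * y) ^ (a' + b' + 1)) * (2 * (x * y)) ^ j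
            * (x + y) ^ (a' + b' + 2) := by
          have gen : ∀ (c z s : ℝ) (m j : ℕ), c ^ (m + 1 + j) * s ^ (m + 2) * z ^ (m + 1 + j)
              = (c ^ (m + 1) * z ^ (m + 1)) * (c * z) ^ j * s ^ (m + 2) := by
            intro c z s m j
            ring
          have := gen 2 (x * y) (x + y) (a' + b') j
          rw [← this]
          congr 2
          ring_nf
      _ ≤ ((p + q) * (x + y) ^ (a' + b')) * ((x + y) ^ 2) ^ j * (x + y) ^ (a' + b' + 2) := by
          apply mul_le_mul_of_nonneg_right _ (by positivity)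
          exact mul_le_mul hT hj (by positivity) (by positivity)
      _ = (p + q) * (x + y) ^ (2 * (a' + b' + 1 + j)) := by
          have gen : ∀ (s : ℝ) (m j : ℕ), s ^ m * (s ^ 2) ^ j * s ^ (m + 2) = s ^ (2 * (m + 1 + j)) := by
            intro s m j
            ring
          rw [← gen (x + y) (a' + b') j]
          ring

section main

variable {V W : Type*} [Fintype V] [Fintype W] [DecidableEq V] [DecidableEq W]

/-- glue a map on the vertices of colour `true` and a map on the vertices of colour `false` -/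
def glue (cH : V → Bool) {P Q : W → Prop}
    (p : ({v // cH v = true} → {w // P w}) × ({v // cH v = false} → {w // Q w})) (v : V) : W :=
  if h : cH v = true then (p.1 ⟨v, h⟩).1 else (p.2 ⟨v, by simpa using h⟩).1

theorem glue_true (cH : V → Bool) {P Q : W → Prop}
    (p : ({v // cH v = true} → {w // P w}) × ({v // cH v = false} → {w // Q w})) (v : V)
    (h : cH v = true) : glue cH p v = (p.1 ⟨v, h⟩).1 := by
  unfold glue
  rw [dif_pos h]

theorem glue_false (cH : V → Bool) {P Q : W → Prop}
    (p : ({v // cH v = true} → {w // P w}) × ({v // cH v = false} → {w // Q w})) (v : V)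
    (h : cH v = false) : glue cH p v = (p.2 ⟨v, h⟩).1 := by
  unfold glue
  rw [dif_neg (by simp [h])]

/-- lower bound for the number of homomorphisms with a prescribed orientation -/
theorem pattern_bound (H : SimpleGraph V) (G : SimpleGraph W) [DecidableRel H.Adj]
    [DecidableRel G.Adj] (cH : V → Bool) (hcH : ∀ u v, H.Adj u v → cH u ≠ cH v)
    (cG : W → Bool) (hcG : ∀ x y, G.Adj x y → cG x ≠ cG y)
    (h2 : ∀ a b c d, G.Adj a b → G.Adj c d → a ≠ c → a ≠ d → b ≠ c → b ≠ d →
      G.Adj a c ∨ G.Adj a d ∨ G.Adj b c ∨ G.Adj b d) (s t : Bool) (hst : s ≠ t) :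
    Fintype.card {w // cG w = s} ^ Fintype.card {v // cH v = true} *
        Fintype.card {w // cG w = t} ^ Fintype.card {v // cH v = false} *
        G.edgeFinset.card ^ H.edgeFinset.card
      ≤ (univ.filter (fun φ : V → W => (∀ u v, H.Adj u v → G.Adj (φ u) (φ v)) ∧
            ∀ v, cG (φ v) = if cH v = true then s else t)).card *
        (Fintype.card {w // cG w = s} * Fintype.card {w // cG w = t}) ^ H.edgeFinset.card := by
  classical
  have key := chain_count (A := {v // cH v = true}) (B := {v // cH v = false})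
    (X := {w // cG w = s}) (Y := {w // cG w = t})
    (fun u v => H.Adj u.1 v.1) (fun x y => G.Adj x.1 y.1)
    (nested_of_2K2 G cG hcG h2 s t hst)
  rw [bip_edges G cG hcG s t hst, bip_edges H cH hcH true false (by decide)] at key
  refine le_trans key (Nat.mul_le_mul_right _ ?_)
  apply Finset.card_le_card_of_injOn (glue cH)
  · intro p hp
    rw [Finset.mem_coe, Finset.mem_filter] at hp
    rw [Finset.mem_coe, Finset.mem_filter]
    refine ⟨mem_univ _, ?_, ?_⟩
    · intro u v huv
      have hne := hcH u v huv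
      cases hu : cH u <;> cases hv : cH v
      · exact absurd (hu.trans hv.symm) hne
      · rw [glue_false cH p u hu, glue_true cH p v hv]
        exact (hp.2 ⟨v, hv⟩ ⟨u, hu⟩ huv.symm).symm
      · rw [glue_true cH p u hu, glue_false cH p v hv]
        exact hp.2 ⟨u, hu⟩ ⟨v, hv⟩ huv
      · exact absurd (hu.trans hv.symm) hne
    · intro v
      cases hv : cH v
      · rw [glue_false cH p v hv]
        simpa using (p.2 ⟨v, hv⟩).2
      · rw [glue_true cH p v hv]
        simpa using (p.1 ⟨v, hv⟩).2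
  · intro p _ q _ hpq
    refine Prod.ext (funext fun u => Subtype.ext ?_) (funext fun v => Subtype.ext ?_)
    · have := congrFun hpq u.1
      rwa [glue_true cH p u.1 u.2, glue_true cH q u.1 u.2] at this
    · have := congrFun hpq v.1
      rwa [glue_false cH p v.1 v.2, glue_false cH q v.1 v.2] at this

theorem card_bool_split (c : W → Bool) :
    Fintype.card {w // c w = true} + Fintype.card {w // c w = false} = Fintype.card W := by
  classical
  rw [Fintype.card_subtype, Fintype.card_subtype]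
  have h := Finset.card_filter_add_card_filter_not (s := (univ : Finset W))
    (p := fun w => c w = true)
  rw [Finset.card_univ] at h
  rw [← h]
  have hset : (univ.filter fun w => c w = false) = univ.filter (fun w => ¬ c w = true) := by
    ext w
    simp
  rw [hset]

/-- Sidorenko's inequality for a connected bipartite `H` and a bipartite host `G` with no induced
`2K_2`, with explicit two-colourings -/
theorem sidorenko_chain_core (H : SimpleGraph V) (G : SimpleGraph W) [DecidableRel H.Adj]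
    [DecidableRel G.Adj] [Nonempty W] (hH : H.Connected)
    (cH : V → Bool) (hcH : ∀ u v, H.Adj u v → cH u ≠ cH v)
    (cG : W → Bool) (hcG : ∀ x y, G.Adj x y → cG x ≠ cG y)
    (h2 : ∀ a b c d, G.Adj a b → G.Adj c d → a ≠ c → a ≠ d → b ≠ c → b ≠ d →
      G.Adj a c ∨ G.Adj a d ∨ G.Adj b c ∨ G.Adj b d) :
    ((2 * (G.edgeFinset.card : ℝ)) / (Fintype.card W : ℝ) ^ 2) ^ H.edgeFinset.card
      ≤ ((univ.filter (fun φ : V → W => ∀ u v, H.Adj u v → G.Adj (φ u) (φ v))).card : ℝ)
        / (Fintype.card W : ℝ) ^ Fintype.card V := by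
  classical
  set e := H.edgeFinset.card with he
  set E := G.edgeFinset.card with hE
  set nX := Fintype.card {w // cG w = true} with hnX
  set nY := Fintype.card {w // cG w = false} with hnY
  set a := Fintype.card {v // cH v = true} with ha
  set b := Fintype.card {v // cH v = false} with hb
  set N := (univ.filter (fun φ : V → W => ∀ u v, H.Adj u v → G.Adj (φ u) (φ v))).card with hN
  set T1 := (univ.filter (fun φ : V → W => (∀ u v, H.Adj u v → G.Adj (φ u) (φ v)) ∧
    ∀ v, cG (φ v) = if cH v = true then true else false)).card with hT1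
  set T2 := (univ.filter (fun φ : V → W => (∀ u v, H.Adj u v → G.Adj (φ u) (φ v)) ∧
    ∀ v, cG (φ v) = if cH v = true then false else true)).card with hT2
  have I1 : nX ^ a * nY ^ b * E ^ e ≤ T1 * (nX * nY) ^ e :=
    pattern_bound H G cH hcH cG hcG h2 true false (by decide)
  have I2 : nY ^ a * nX ^ b * E ^ e ≤ T2 * (nY * nX) ^ e :=
    pattern_bound H G cH hcH cG hcG h2 false true (by decide)
  have I3 : T1 + T2 ≤ N := by
    rw [hT1, hT2, hN, ← Finset.card_union_of_disjoint]
    · apply Finset.card_le_card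
      intro φ hφ
      rw [Finset.mem_union, Finset.mem_filter, Finset.mem_filter] at hφ
      rw [Finset.mem_filter]
      rcases hφ with h | h
      · exact ⟨mem_univ _, h.2.1⟩
      · exact ⟨mem_univ _, h.2.1⟩
    · rw [Finset.disjoint_filter]
      intro φ _ h1 h2'
      obtain ⟨v0⟩ := hH.nonempty
      have := (h1.2 v0).symm.trans (h2'.2 v0)
      cases hv : cH v0 <;> simp [hv] at this
  have hnW : nX + nY = Fintype.card W := card_bool_split cG
  have habV : a + b = Fintype.card V := card_bool_split cH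
  have hC1 : a + b ≤ e + 1 := by
    have := hH.card_vert_le_card_edgeSet_add_one
    rw [Nat.card_eq_fintype_card, Nat.card_eq_fintype_card, ← SimpleGraph.edgeFinset_card] at this
    omega
  have hC1' : 1 ≤ a + b := by
    rw [habV]
    exact Fintype.card_pos_iff.mpr hH.nonempty
  have hC3 : 1 ≤ e → 1 ≤ a ∧ 1 ≤ b := by
    intro h1e
    have hsum := bip_edges H cH hcH true false (by decide)
    have hne : ∑ x : {v // cH v = true},
        rdeg (fun (x : {v // cH v = true}) (y : {v // cH v = false}) => H.Adj x.1 y.1) x ≠ 0 := by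
      rw [hsum]
      omega
    obtain ⟨u, _, hu⟩ := Finset.exists_ne_zero_of_sum_ne_zero hne
    have hpos := Nat.pos_of_ne_zero hu
    unfold rdeg at hpos
    obtain ⟨v, _⟩ := Finset.card_pos.mp hpos
    exact ⟨Fintype.card_pos_iff.mpr ⟨u⟩, Fintype.card_pos_iff.mpr ⟨v⟩⟩
  have hC2 : E ≤ nX * nY := by
    have hsum := bip_edges G cG hcG true false (by decide)
    rw [hE, ← hsum]
    calc _ ≤ ∑ _x : {w // cG w = true}, nY := Finset.sum_le_sum (fun x _ => rdeg_le _ x)
      _ = nX * nY := by rw [Finset.sum_const, Finset.card_univ, smul_eq_mul]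
  have hnpos : 0 < nX + nY := by
    rw [hnW]
    exact Fintype.card_pos
  have I1r : (nX : ℝ) ^ a * (nY : ℝ) ^ b * (E : ℝ) ^ e ≤ (T1 : ℝ) * ((nX : ℝ) * (nY : ℝ)) ^ e := by
    exact_mod_cast I1
  have I2r : (nY : ℝ) ^ a * (nX : ℝ) ^ b * (E : ℝ) ^ e ≤ (T2 : ℝ) * ((nY : ℝ) * (nX : ℝ)) ^ e := by
    exact_mod_cast I2
  have I3r : (T1 : ℝ) + T2 ≤ N := by exact_mod_cast I3
  have hC2r : (E : ℝ) ≤ (nX : ℝ) * (nY : ℝ) := by exact_mod_cast hC2
  rw [← habV, ← hnW]
  push_cast
  set x : ℝ := (nX : ℝ) with hx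
  set y : ℝ := (nY : ℝ) with hy
  have hx0 : 0 ≤ x := Nat.cast_nonneg _
  have hy0 : 0 ≤ y := Nat.cast_nonneg _
  have hxy1 : 0 < x + y := by
    rw [hx, hy]
    exact_mod_cast hnpos
  have hxy0 : 0 ≤ x * y := mul_nonneg hx0 hy0
  have K := keyK x y hx0 hy0 a b e hC1 hC1' hC3
  have hE0 : (0 : ℝ) ≤ E := Nat.cast_nonneg _
  have hstar : (2 * (E : ℝ)) ^ e * (x + y) ^ (a + b) * (x * y) ^ e
      ≤ (N : ℝ) * (x + y) ^ (2 * e) * (x * y) ^ e := by
    calc (2 * (E : ℝ)) ^ e * (x + y) ^ (a + b) * (x * y) ^ e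
        = (2 ^ e * (x + y) ^ (a + b) * (x * y) ^ e) * (E : ℝ) ^ e := by
          rw [mul_pow]
          ring
      _ ≤ ((x ^ a * y ^ b + x ^ b * y ^ a) * (x + y) ^ (2 * e)) * (E : ℝ) ^ e :=
          mul_le_mul_of_nonneg_right K (pow_nonneg hE0 _)
      _ = (x ^ a * y ^ b * (E : ℝ) ^ e + y ^ a * x ^ b * (E : ℝ) ^ e) * (x + y) ^ (2 * e) := by
          ring
      _ ≤ ((T1 : ℝ) * (x * y) ^ e + (T2 : ℝ) * (y * x) ^ e) * (x + y) ^ (2 * e) :=
          mul_le_mul_of_nonneg_right (add_le_add I1r I2r) (pow_nonneg hxy1.le _)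
      _ = ((T1 : ℝ) + T2) * (x * y) ^ e * (x + y) ^ (2 * e) := by
          rw [mul_comm y x]
          ring
      _ ≤ (N : ℝ) * (x * y) ^ e * (x + y) ^ (2 * e) := by
          apply mul_le_mul_of_nonneg_right _ (pow_nonneg hxy1.le _)
          exact mul_le_mul_of_nonneg_right I3r (pow_nonneg hxy0 _)
      _ = _ := by ring
  rw [div_pow, div_le_div_iff₀ (pow_pos (pow_pos hxy1 2) e) (pow_pos hxy1 (a + b)), ← pow_mul]
  rcases hxy0.eq_or_lt with hxy | hxy
  · have hE' : (E : ℝ) = 0 := le_antisymm (by rw [hxy]; exact hC2r) hE0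
    rcases Nat.eq_zero_or_pos e with he0 | he0
    · rw [he0] at hstar ⊢
      simpa using hstar
    · rw [hE', mul_zero, zero_pow he0.ne', zero_mul]
      exact mul_nonneg (Nat.cast_nonneg _) (pow_nonneg hxy1.le _)
  · exact le_of_mul_le_mul_right hstar (pow_pos hxy e)

/-- homomorphisms as a subtype of functions -/
def homEquiv (H : SimpleGraph V) (G : SimpleGraph W) :
    (H →g G) ≃ {φ : V → W // ∀ u v, H.Adj u v → G.Adj (φ u) (φ v)} where
  toFun h := ⟨h, fun _ _ huv => h.map_adj huv⟩
  invFun φ := ⟨φ.1, fun {a b} hab => φ.2 a b hab⟩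
  left_inv _ := RelHom.ext (fun _ => rfl)
  right_inv _ := Subtype.ext rfl

/-- Sidorenko's inequality `t(H, G) ≥ p(G) ^ |E(H)|` for every connected bipartite graph `H` and
every bipartite host graph `G` with no induced `2K_2`. -/
theorem sidorenko_chain (H : SimpleGraph V) (G : SimpleGraph W) [DecidableRel H.Adj]
    [DecidableRel G.Adj] [Nonempty W] (hH : H.Connected) (hHb : H.IsBipartite)
    (hGb : G.IsBipartite)
    (h2 : ∀ a b c d, G.Adj a b → G.Adj c d → a ≠ c → a ≠ d → b ≠ c → b ≠ d →
      G.Adj a c ∨ G.Adj a d ∨ G.Adj b c ∨ G.Adj b d) :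
    ((2 * (G.edgeFinset.card : ℝ)) / (Fintype.card W : ℝ) ^ 2) ^ H.edgeFinset.card
      ≤ (Nat.card (H →g G) : ℝ) / (Fintype.card W : ℝ) ^ Fintype.card V := by
  classical
  have key : ∀ i j : Fin 2, decide (i = 0) = decide (j = 0) → i = j := by decide
  obtain ⟨CH⟩ := hHb
  obtain ⟨CG⟩ := hGb
  have main := sidorenko_chain_core H G hH (fun v => decide (CH v = 0))
    (fun u v huv h => CH.valid huv (key _ _ h)) (fun w => decide (CG w = 0))
    (fun x y hxy h => CG.valid hxy (key _ _ h)) h2
  have hcard : Nat.card (H →g G)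
      = (univ.filter (fun φ : V → W => ∀ u v, H.Adj u v → G.Adj (φ u) (φ v))).card := by
    rw [Nat.card_congr (homEquiv H G), Nat.card_eq_fintype_card, Fintype.card_subtype]
  rw [hcard]
  exact main

end main

end Vale.Agent.Lib.P050.helper5
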